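import Crest.Agent.X212.Num57.Hop
import Crest.Agent.X212.Met55.Mix
import Mathlib.Geometry.Manifold.WhitneyEmbedding
import Crest.Agent.X212.Abel74.Gap
import Crest.Agent.X212.Eq82.Leaf

-- ▼ part X212/Eq82/Rep
section

/-!
# Row 212, AN5: every smooth two-tensor is a finite sum `∑ f dg ⊗ dh`
-/

set_option autoImplicit false
set_option linter.unusedSectionVars false
noncomputable section
open scoped Manifold ContDiff Topology
open Set Function Matrix

namespace Crest.Agent.X212.Eq82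
open An

variable {E : Type} [NormedAddCommGroup E] [NormedSpace ℝ E] [FiniteDimensional ℝ E]
  [MeasurableSpace E] [BorelSpace E]
  {HM : Type} [TopologicalSpace HM] {I : ModelWithCorners ℝ E HM} [I.Boundaryless]
  {M : Type} [TopologicalSpace M] [ChartedSpace HM M] [IsManifold I ∞ M]
  [MeasurableSpace M] [T2Space M] [CompactSpace M] {ι : Type} [Fintype ι]

/-- the coframe is a combination of differentials of global functions -/
theorem exists_cof (F : Fr I M ι) : ∃ (N : ℕ) (c : ι → Fin N → M → ℝ) (g : Fin N → M → ℝ),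
    (∀ a i, Sm I (c a i)) ∧ (∀ i, Sm I (g i)) ∧
      ∀ a b x, ∑ i, c a i x * F.D b (g i) x = F.P a b x := by
  classical
  obtain ⟨N, e, h1, -, h2⟩ := exists_embedding_euclidean_of_compact (I := I) (M := M)
  let g : Fin N → M → ℝ := fun i x => e x i
  have hg : ∀ i, Sm I (g i) := fun i => (EuclideanSpace.proj i : _ →L[ℝ] ℝ).contMDiff.comp h1
  have hD : ∀ b i x, F.D b (g i) x = F.D b e x i := fun b i x =>
    Sob92.dv_clm (EuclideanSpace.proj i : _ →L[ℝ] ℝ) (h1.mdifferentiableAt (by simp))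
  let A : M → Matrix ι (Fin N) ℝ := fun x => Matrix.of fun b i => F.D b (g i) x
  let P : M → Matrix ι ι ℝ := fun x => Matrix.of fun a b => F.P a b x
  let G : M → Matrix ι ι ℝ := fun x => A x * (A x)ᵀ + (1 - P x)
  have PA : ∀ x, P x * A x = A x := fun x => by
    ext b i; exact Num57.P_D F (g i) b x
  have Pt : ∀ x, (P x)ᵀ = P x := fun x => by ext a b; exact F.P_symm b a x
  have PP : ∀ x, P x * P x = P x := fun x => by ext a b; exact ((Wz78.frm F).pr x).idem a b
  have AP : ∀ x, (A x)ᵀ * P x = (A x)ᵀ := fun x => by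
    rw [← Pt x, ← transpose_mul, PA]
  have GP : ∀ x, G x * (1 - P x) = 1 - P x := fun x => by
    simp only [G, Matrix.add_mul, Matrix.mul_sub, Matrix.sub_mul, Matrix.mul_one, Matrix.one_mul,
      Matrix.mul_assoc, AP, PP]
    abel
  have hdet : ∀ x, (G x).det ≠ 0 := fun x h0 => by
    obtain ⟨v, hv, hz⟩ := Matrix.exists_mulVec_eq_zero_iff.2 h0
    have k1 : v ⬝ᵥ (G x *ᵥ v) = ((A x)ᵀ *ᵥ v) ⬝ᵥ ((A x)ᵀ *ᵥ v) +
        ((1 - P x) *ᵥ v) ⬝ᵥ ((1 - P x) *ᵥ v) := by
      have e1 : (1 - P x) = (1 - P x)ᵀ * (1 - P x) := by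
        rw [transpose_sub, transpose_one, Pt]
        simp only [Matrix.mul_sub, Matrix.sub_mul, Matrix.mul_one, Matrix.one_mul, PP]
        abel
      simp only [G, add_mulVec, dotProduct_add]
      congr 1
      · rw [← mulVec_mulVec, dotProduct_mulVec, ← mulVec_transpose]
      · conv_lhs => rw [e1, ← mulVec_mulVec, dotProduct_mulVec, ← mulVec_transpose,
          transpose_transpose]
    rw [hz, dotProduct_zero] at k1
    have n1 : 0 ≤ ((A x)ᵀ *ᵥ v) ⬝ᵥ ((A x)ᵀ *ᵥ v) := Finset.sum_nonneg fun _ _ => mul_self_nonneg _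
    have n2 : 0 ≤ ((1 - P x) *ᵥ v) ⬝ᵥ ((1 - P x) *ᵥ v) :=
      Finset.sum_nonneg fun _ _ => mul_self_nonneg _
    have z1 : (A x)ᵀ *ᵥ v = 0 := dotProduct_self_eq_zero.1 (by linarith)
    have z2 : (1 - P x) *ᵥ v = 0 := dotProduct_self_eq_zero.1 (by linarith)
    have z3 : ∑ b, v b • F.e b x = 0 := h2 x (by
      rw [map_zero, map_sum]
      simp only [map_smul]
      show ∑ b, v b • F.D b e x = (0 : EuclideanSpace ℝ (Fin N))
      ext i
      have := congrFun z1 i
      simp only [A, mulVec, dotProduct, transpose_apply, of_apply, hD, Pi.zero_apply] at this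
      refine Eq.trans ?_ this
      refine (map_sum (EuclideanSpace.proj i : EuclideanSpace ℝ (Fin N) →L[ℝ] ℝ) _ _).trans ?_
      exact Finset.sum_congr rfl fun b _ => mul_comm _ _)
    refine hv (funext fun a => ?_)
    have := congrFun z2 a
    rw [sub_mulVec, one_mulVec, Pi.sub_apply, Pi.zero_apply, sub_eq_zero] at this
    exact this.trans (F.P_ker x v z3 a)
  have sA : ∀ x, Pj41.MSm I A x := fun x b i => F.sm_D (hg i) b x
  have sP : ∀ x, Pj41.MSm I P x := fun x a b => F.P_sm a b x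
  refine ⟨N, fun a i x => (P x * (G x)⁻¹ * A x) a i, g, fun a i x => ((sP x).mul
    ((((sA x).mul (sA x).transpose).add ((Pj41.MSm.const 1).sub (sP x))).inv (hdet x))).mul (sA x)
    a i, hg, fun a b x => ?_⟩
  have hu : (G x)⁻¹ * G x = 1 := nonsing_inv_mul _ (Ne.isUnit (hdet x))
  have k : (G x)⁻¹ * (1 - P x) = 1 - P x := by
    conv_lhs => rw [← GP x, ← Matrix.mul_assoc, hu, Matrix.one_mul]
  have : P x * (G x)⁻¹ * A x * (A x)ᵀ = P x := by
    rw [Matrix.mul_assoc, show A x * (A x)ᵀ = G x - (1 - P x) from (add_sub_cancel_right _ _).symm,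
      Matrix.mul_assoc, Matrix.mul_sub, hu, k, sub_sub_cancel, PP]
  exact congrFun (congrFun this a) b

/-- **REP** -/
theorem exists_rep (F : Fr I M ι) {η : ι → ι → M → ℝ} (hs : ∀ a b, Sm I (η a b))
    (h1 : ∀ a b x, ∑ k, F.P a k x * η k b x = η a b x)
    (h2 : ∀ a b x, ∑ k, F.P b k x * η a k x = η a b x) :
    ∃ (N : ℕ) (f g h : Fin N → M → ℝ), (∀ k, Sm I (f k) ∧ Sm I (g k) ∧ Sm I (h k)) ∧
      ∀ a b x, ∑ k, f k x * F.D a (g k) x * F.D b (h k) x = η a b x := by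
  obtain ⟨N, c, g, hc, hg, h⟩ := exists_cof F
  let e := (finProdFinEquiv (m := N) (n := N)).symm
  refine ⟨N * N, fun k x => ∑ a, ∑ b, η a b x * c a (e k).1 x * c b (e k).2 x, fun k => g (e k).1,
    fun k => g (e k).2, fun k => ⟨contMDiff_finsetSum fun a _ => contMDiff_finsetSum fun b _ =>
      ((hs a b).mul (hc _ _)).mul (hc _ _), hg _, hg _⟩, fun a b x => ?_⟩
  rw [e.sum_comp fun s => (∑ a, ∑ b, η a b x * c a s.1 x * c b s.2 x) * F.D a (g s.1) x *
    F.D b (g s.2) x, Fintype.sum_prod_type, ← h1]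
  simp only [Finset.sum_mul]
  rw [Finset.sum_congr rfl fun i _ => Finset.sum_comm, Finset.sum_comm]
  refine Finset.sum_congr rfl fun a' _ => ?_
  rw [← h2, F.P_symm a, ← h a' a, Finset.mul_sum, Finset.sum_congr rfl fun i _ => Finset.sum_comm,
    Finset.sum_comm]
  refine Finset.sum_congr rfl fun b' _ => ?_
  rw [F.P_symm b, ← h b' b]
  simp only [Finset.sum_mul, Finset.mul_sum]
  rw [Finset.sum_comm]
  exact Finset.sum_congr rfl fun i _ => Finset.sum_congr rfl fun j _ => by ring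

end Crest.Agent.X212.Eq82
end
end

-- ▼ part X212/Abel74/Lab

/-!
# Row 212, ABEL (helper74): labels; the leaves `NrmL` and `SepL`
-/

set_option autoImplicit false
set_option linter.unusedSectionVars false
noncomputable section
open scoped Manifold ContDiff Topology InnerProductSpace
open Finset Filter MeasureTheory
open Crest.Agent.R208 Crest.Agent.R208.F

namespace Crest.Agent.X212.Abel74
open An Wz78 Eq82 Num57 Mp86
open Line51 (Ln)
open Dr59 (HR Cl exists_cls cls_smul)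

variable {E : Type} [NormedAddCommGroup E] [NormedSpace ℝ E] [FiniteDimensional ℝ E]
  [MeasurableSpace E] [BorelSpace E]
  {HM : Type} [TopologicalSpace HM] {I : ModelWithCorners ℝ E HM} [I.Boundaryless]
  {M : Type} [TopologicalSpace M] [ChartedSpace HM M] [IsManifold I ∞ M]
  [MeasurableSpace M] [BorelSpace M] [SecondCountableTopology M] [T2Space M] [CompactSpace M]
  {ι : Type} [Fintype ι] [DecidableEq ι] {κ : Type} [Fintype κ] [DecidableEq κ] {r : ℕ}
  {X : Bk I M ι} {L : Ln E M κ} {F : Fr I M ι}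

theorem B_ok (X : Bk I M ι) (hL : L.On I Set.univ) : (X.B L).OK I :=
  hL.base_ok X.F.P_sm X.ok.sm (fun x => (X.ok.vo x).pr) (fun x => (X.ok.vo x).tr)
    (fun a b c d x => (X.ok.vo x).a1 a b c d) (fun a b c d x => (X.ok.vo x).a2 a b c d)
    (fun a b c d x => (X.ok.vo x).a3 a b c d) (fun a b c d x => (X.ok.vo x).po a b c d)
    fun x => (X.ok.vo x).nm

theorem G_ok (hL : L.On I Set.univ) (hF : X.Pos F) : (L.geo F).OK (X.B L) := by
  have := hL.geo_ok hF.vol X.o
  rwa [hF.P] at this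

theorem okF (hF : X.Pos F) : OK F X.o := ⟨X.ok.h4, hF.vol, X.ok.sm, hF.P ▸ X.ok.vo⟩

theorem Q_eq (hF : X.Pos F) : X.Q = Q (okF hF).ori := (Q_ori _ _ hF.ori).symm

theorem cl2_eq {a : M → Ext E} (h : Cl I 2 Set.univ a) : cl2 I a = h.cls := dif_pos h

/-- the components of the Hodge dual -/
def gm (F : Fr I M ι) (o : ι → ι → ι → ι → M → ℝ) (β : M → Ext E) (a b : ι) (x : M) : ℝ :=
  ∑ c, ∑ d, o a b c d x * k2 F β c d x

/-- the density of the pairing with `β` -/
def pv (F : Fr I M ι) (o : ι → ι → ι → ι → M → ℝ) (β : M → Ext E) (f : ι → ι → M → ℝ)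
    (x : M) : ℝ := ∑ s : ι × ι, gm F o β s.1 s.2 x * f s.1 s.2 x

variable {β : M → Ext E} {c : Cfg M ι (κ ⊕ κ) r} {ξ : M → c.m.A}

theorem sm_gm (hβ : Cl I 2 Set.univ β) (a b : ι) : An.Sm I (gm F X.o β a b) := fun x =>
  SA.sum _ fun c _ => SA.sum _ fun d _ => SA.mul (X.ok.sm a b c d x) (sa_k2 F (hβ.sm x trivial) c d)

theorem sm_pv (hβ : Cl I 2 Set.univ β) {f : ι → ι → M → ℝ} (hf : ∀ a b, An.Sm I (f a b)) :
    An.Sm I (pv F X.o β f) := fun x => SA.sum _ fun _ _ => SA.mul (sm_gm hβ _ _ x) (hf _ _ x)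

theorem rep_gm (hF : X.Pos F) (hβ : Cl I 2 Set.univ β) : ∃ (N : ℕ) (f g h : Fin N → M → ℝ),
    (∀ k, An.Sm I (f k) ∧ An.Sm I (g k) ∧ An.Sm I (h k)) ∧
      ∀ a b x, ∑ k, f k x * F.D a (g k) x * F.D b (h k) x = gm F X.o β a b x := by
  have v := (okF hF).vo
  have h1 : ∀ a b x, ∑ k, F.P a k x * gm F X.o β k b x = gm F X.o β a b x := fun a b x => by
    simp only [gm, mul_sum, ← mul_assoc]
    rw [sum_comm]
    refine sum_congr rfl fun c _ => ?_
    rw [sum_comm]
    simp only [← sum_mul, (v x).po]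
  have h2 : ∀ a b x, gm F X.o β a b x = -gm F X.o β b a x := fun a b x => by
    simp only [gm, (v x).a1 a b, neg_mul, sum_neg_distrib]
  exact exists_rep F (sm_gm hβ) h1 fun a b x => by
    simp only [h2 a, mul_neg, sum_neg_distrib, h1]

section red
variable (hL : L.On I Set.univ) (hF : X.Pos F) (C : c.m.IsConn (X.B L) (L.geo F) c.W)
include hL hF C

theorem lab_eq (R : Red F c.m c.W ξ) : lab F c ξ =
    Real.pi⁻¹ • (Red.cl_fm (G := L.geo F) R (G_ok hL hF) C).cls := by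
  rw [lab, ← cl2_eq]; rfl

/-- the pairing of the label with a class -/
theorem Q_lab (R : Red F c.m c.W ξ) (hβ : Cl I 2 Set.univ β) : X.Q (lab F c ξ) hβ.cls =
    (4 * Real.pi)⁻¹ * ∫ x, pv F X.o β (fF F c.m c.W ξ) x ∂F.μ := by
  rw [lab_eq hL hF C R, Q_eq hF, map_smul, LinearMap.smul_apply, Q_cls, smul_eq_mul]
  have := Red.integ_fm (ξ := ξ) (G_ok hL hF) C (B_ok X hL) X.ok.h4 β
  refine (congrArg _ this).trans ?_
  simp only [pv, gm, Fintype.sum_prod_type, sum_mul, mul_inv, mul_assoc, mul_comm (k2 F β _ _ _)]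
  rw [mul_left_comm, one_div]
  rfl

/-- the level is minus a quarter of the square of the label -/
theorem kap_lab (R : Red F c.m c.W ξ) (H : c.m.OK I (X.B L)) :
    c.kap (X.B L) (L.geo F) = -X.Q (lab F c ξ) (lab F c ξ) / 4 := by
  rw [Cfg.kap, Red.kap_Q (G := L.geo F) R (G_ok hL hF) C (B_ok X hL) X.ok.h4 H, lab_eq hL hF C R,
    Q_eq hF]
  simp only [map_smul, LinearMap.smul_apply, smul_eq_mul]
  change _ * Q (okF hF).ori _ _ = _
  field_simp

end red

/-! ### words -/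

/-- the words `Gⁿ cv` -/
def wG {N : ℕ} (f g h : Fin N → M → ℝ) (n : ℕ) (k : Fin N) : AW M :=
  ⟨.cv (f k) (g k) (h k), List.replicate n .G⟩

variable {N : ℕ} {f g h : Fin N → M → ℝ}

theorem cd_of_sm (F : Fr I M ι) {g : M → ℝ} (hg : An.Sm I g) : F.Cd g :=
  ⟨hg, fun a => Sob92.Cb_of_compact (F.sm_D hg a)⟩

theorem ok_wG (F : Fr I M ι) (hs : ∀ k, An.Sm I (f k) ∧ An.Sm I (g k) ∧ An.Sm I (h k)) (n : ℕ)
    (k : Fin N) : (wG f g h n k).OK F :=
  ⟨⟨Sob92.Cb_of_compact (hs k).1, cd_of_sm F (hs k).2.1, cd_of_sm F (hs k).2.2⟩, fun t ht => by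
    rw [List.eq_of_mem_replicate ht]; trivial⟩

theorem wd_rep (u : M → ℝ) (n : ℕ) :
    Wrd81.wd (la0 F) u (List.replicate n .G) = (G0 F)^[n] u := by
  induction n with
  | zero => rfl
  | succ n ih => rw [Function.iterate_succ_apply', ← ih]; rfl

theorem G0_iter_sum (h4 : Module.finrank ℝ E ≤ 4) {α : Type} (s : Finset α) {u : α → M → ℝ}
    (hu : ∀ k, An.Sm I (u k)) (n : ℕ) (x : M) :
    ∑ k ∈ s, (G0 F)^[n] (u k) x = (G0 F)^[n] (fun x => ∑ k ∈ s, u k x) x := by
  classical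
  induction s using Finset.induction_on with
  | empty => simp only [sum_empty, Function.iterate_fixed (G0_const (F := F) 0)]
  | insert a s ha ih =>
    simp only [sum_insert ha, ih, G0_iter_add h4 (hu a) (contMDiff_finsetSum fun k _ => hu k)]

theorem sum_aw0 (h4 : Module.finrank ℝ E ≤ 4)
    (hs : ∀ k, An.Sm I (f k) ∧ An.Sm I (g k) ∧ An.Sm I (h k))
    (he : ∀ a b x, ∑ k, f k x * F.D a (g k) x * F.D b (h k) x = gm F X.o β a b x)
    (hf : ∀ a b, An.Sm I (fF F c.m c.W ξ a b)) (n : ℕ) (x : M) :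
    ∑ k, aw0 F c ξ (wG f g h n k) x = (G0 F)^[n + 2] (pv F X.o β (fF F c.m c.W ξ)) x := by
  have := G0_iter_sum (F := F) h4 univ (u := fun k x => ∑ s : ι × ι, f k x * F.D s.1 (g k) x *
    F.D s.2 (h k) x * fF F c.m c.W ξ s.1 s.2 x) (fun k => contMDiff_finsetSum fun s _ =>
      (((hs k).1.mul (F.sm_D (hs k).2.1 _)).mul (F.sm_D (hs k).2.2 _)).mul (hf _ _)) (n + 2) x
  refine Eq.trans (sum_congr rfl fun k _ => congrFun (wd_rep _ n) x) (this.trans ?_)
  refine congrArg (fun u => (G0 F)^[n + 2] u x) (funext fun y => ?_)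
  rw [sum_comm]
  simp only [← sum_mul, he, pv]

theorem vol_pos [Nonempty M] (F : Fr I M ι) : 0 < F.μ.real Set.univ := by
  have : IsFiniteMeasure F.μ := CompactSpace.isFiniteMeasure
  have := Sob92.openPos F.toPre
  exact ENNReal.toReal_pos (isOpen_univ.measure_ne_zero _ Set.univ_nonempty) (measure_ne_top _ _)

theorem pv_le (hβ : Cl I 2 Set.univ β) {f : ι → ι → M → ℝ} (hf : ∀ a b, An.Sm I (f a b)) {K : ℝ}
    (hK : ∀ y, ∑ s : ι × ι, gm F X.o β s.1 s.2 y ^ 2 ≤ K) {u : M → ℝ}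
    (hu : ∀ y, u y = 16 * ∑ a, ∑ b, f a b y ^ 2) :
    ∫ y, pv F X.o β f y ^ 2 ∂F.μ ≤ K * ∫ y, u y ∂F.μ := by
  have hc := fun a b => (hf a b).continuous
  rw [← integral_const_mul, funext hu]
  refine integral_mono (intg ((sm_pv hβ hf).continuous.pow 2)) (intg (by fun_prop)) fun y => ?_
  refine (sum_mul_sq_le_sq_mul_sq _ _ _).trans (mul_le_mul (hK y) ?_ (by positivity)
    (le_trans (by positivity) (hK y)))
  rw [Fintype.sum_prod_type]
  exact le_mul_of_one_le_left (by positivity) (by norm_num)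

variable (X) in
/-- **the leaf `NrmL`** -/
theorem nrmL [ConnectedSpace M] (hL : L.On I Set.univ) : NrmL X L := by
  intro F hF a ha R
  have h4 := X.ok.h4.le
  have hB := B_ok X hL
  have hG := G_ok hL hF
  have hv := vol_pos F
  obtain ⟨z, hz⟩ : ∃ z, X.Q a z ≠ 0 := not_forall.1 fun h => ha (X.ok.Q_nondeg h)
  obtain ⟨β, hβ, e⟩ := exists_cls ((F.μ.real Set.univ / (4 * Real.pi * X.Q a z)) • z)
  obtain ⟨N, f, g, h, hs, he⟩ := rep_gm hF hβ
  have hc := fun a b => (sm_gm (F := F) (X := X) hβ a b).continuous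
  obtain ⟨K, hK⟩ := isCompact_univ.exists_bound_of_continuousOn
    (show Continuous fun x => ∑ s : ι × ι, gm F X.o β s.1 s.2 x ^ 2 by fun_prop).continuousOn
  obtain ⟨n, hn⟩ := gap (F := F) h4 (ε := (2 * √(|K| * R) + 1)⁻¹) (by positivity)
  refine ⟨List.ofFn (wG f g h n), fun ζ hζ => ?_, fun c ξ A S hl hR => ?_⟩
  · obtain ⟨k, rfl⟩ := List.mem_ofFn.1 hζ
    exact ok_wG _ hs n k
  have hf : ∀ a b, An.Sm I (fF F c.m c.W ξ a b) :=
      Red.sm_fF (G := L.geo F) S.toRed hB hG A.ok A.conn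
  have hn2 : ∀ y, ‖c.m.Fg F c.W y‖ ^ 2 = 16 * ∑ a, ∑ b, fF F c.m c.W ξ a b y ^ 2 :=
    Red.norm_Fg (G := L.geo F) S.toRed hB hG A.ok A.conn
  have hp := sm_pv (F := F) (X := X) hβ hf
  have h1 : ⨍ y, pv F X.o β (fF F c.m c.W ξ) y ∂F.μ = 1 := by
    have := Q_lab hL hF A.conn S.toRed hβ
    rw [e, hl, map_smul, smul_eq_mul] at this
    rw [average_eq, smul_eq_mul, inv_mul_eq_one₀ hv.ne']
    field_simp at this
    exact this
  have h2 : ∫ y, pv F X.o β (fF F c.m c.W ξ) y ^ 2 ∂F.μ ≤ |K| * R :=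
    (pv_le hβ hf (fun y => (le_abs_self _).trans ((hK y trivial).trans (le_abs_self K)))
      hn2).trans
      (mul_le_mul_of_nonneg_left hR (abs_nonneg K))
  refine ⟨(G0 F)^[n + 2] (pv F X.o β (fF F c.m c.W ξ)), fun x => ?_⟩
  have h3 := (hn (n + 2) (by omega) _ hp x).trans (mul_le_mul_of_nonneg_left
    (Real.sqrt_le_sqrt h2) (by positivity))
  have h5 : (2 * √(|K| * R) + 1)⁻¹ * √(|K| * R) ≤ 1 / 2 := by
    rw [inv_mul_le_iff₀ (by positivity)]; linarith
  rw [h1] at h3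
  obtain ⟨h6, h7⟩ := abs_le.1 (h3.trans h5)
  refine ⟨by linarith, by linarith, ?_⟩
  have e' : ∀ l, c.aws F l = fun x => aws0 F c ξ l x • ξ x :=
    SPt.aws_eq (G := L.geo F) S A bumps_of_compact hB hG
  simp only [← sum_aw0 h4 hs he hf, e', aws0, List.map_ofFn, List.sum_ofFn, Function.comp_apply]

theorem tend_G0 [PreconnectedSpace M] (h4 : Module.finrank ℝ E ≤ 4) {u w : M → ℝ}
    (hu : An.Sm I u) (hw : Continuous w) : Tendsto (fun n => ∫ x, (G0 F)^[n] u x * w x ∂F.μ) atTop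
      (𝓝 ((⨍ x, u x ∂F.μ) * ∫ x, w x ∂F.μ)) := by
  rw [← integral_const_mul, Metric.tendsto_atTop]
  intro ε hε
  set K := √(∫ x, u x ^ 2 ∂F.μ) * ∫ x, |w x| ∂F.μ with hK
  have K0 : 0 ≤ K := mul_nonneg (Real.sqrt_nonneg _) (integral_nonneg fun _ => abs_nonneg _)
  obtain ⟨n₀, h⟩ := gap (F := F) h4 (ε := ε / (K + 1)) (by positivity)
  refine ⟨n₀, fun n hn => ?_⟩
  have hc := (sm_G0_iter (F := F) hu n).continuous
  rw [dist_eq_norm, ← integral_sub (intg (by fun_prop)) (intg (by fun_prop))]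
  refine (norm_integral_le_of_norm_le (g := fun x => ε / (K + 1) * √(∫ x, u x ^ 2 ∂F.μ) * |w x|)
    (intg (continuous_const.mul hw.abs)) (.of_forall fun x => ?_)).trans_lt ?_
  · rw [← sub_mul, norm_mul]
    exact mul_le_mul_of_nonneg_right (h n hn u hu x) (norm_nonneg _)
  · rw [integral_const_mul, mul_assoc, ← hK, div_mul_eq_mul_div, div_lt_iff₀ (by positivity)]
    linarith

variable (X) in
/-- **the leaf `SepL`** -/
theorem sepL [ConnectedSpace M] (hL : L.On I Set.univ) : SepL X L := by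
  intro F hF c c' ξ ξ' A A' S S' h0 ho
  have h4 := X.ok.h4.le
  have hB := B_ok X hL
  have hG := G_ok hL hF
  refine sub_eq_zero.1 (X.ok.Q_nondeg fun z => ?_)
  obtain ⟨β, hβ, rfl⟩ := exists_cls z
  obtain ⟨N, f, g, h, hs, he⟩ := rep_gm hF hβ
  have ok : AW.OK X.F ⟨.q [.im] [], []⟩ :=
    ⟨⟨fun t ht => by rw [List.mem_singleton.1 ht]; trivial, fun _ h => by cases h⟩,
      fun _ h => by cases h⟩
  have key : ∀ (c : Cfg M ι (κ ⊕ κ) 0) (ξ : M → c.m.A), c.Adm (X.B L) (L.geo F) → SPt F c ξ →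
      Tendsto (fun n => ∑ k, ob F c (some (⟨_, ok_wG X.F hs n k⟩, ⟨_, ok⟩))) atTop
        (𝓝 ((F.μ.real Set.univ)⁻¹ * (4 * Real.pi * X.Q (lab F c ξ) hβ.cls) *
          ob (F₀ := X.F) F c none)) := fun c ξ A S => by
    have hf : ∀ a b, An.Sm I (fF F c.m c.W ξ a b) :=
      Red.sm_fF (G := L.geo F) S.toRed hB hG A.ok A.conn
    have hw : Continuous fun x => ‖c.Φ x‖ ^ 2 := A.sm.continuous.norm.pow 2
    have := (tend_G0 (F := F) h4 (sm_pv (F := F) (X := X) hβ hf) hw).comp (tendsto_add_atTop_nat 2)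
    rw [Q_lab hL hF A.conn S.toRed hβ, mul_inv_cancel_left₀ (by positivity)]
    rw [average_eq, smul_eq_mul] at this
    refine this.congr fun n => ?_
    have e := SPt.aw_eq (G := L.geo F) S A bumps_of_compact hB hG
    have e' : ∀ w, c.aw F w = fun x => aw0 F c ξ w x • ξ x := e
    have eJ : ∀ x, aw0 F c ξ ⟨.q [.im] [], []⟩ x = ‖c.Φ x‖ ^ 2 / 16 := fun x => by
      change ⟪c.m.J (c.Φ x), c.m.J (c.Φ x)⟫_ℝ / 16 = _
      rw [A.ok.Jsk, ← mul_apply_eq_comp, A.ok.Jsq]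
      simp
    simp only [ob, e', real_inner_smul_left, real_inner_smul_right, S.toRed.inn A.ok, eJ,
      Function.comp_apply]
    rw [← integral_finsetSum _ fun k _ => ?_]
    · refine congrArg _ (funext fun x => ?_)
      rw [← sum_aw0 h4 hs he hf, sum_mul]
      exact sum_congr rfl fun k _ => by ring
    · have : Continuous (aw0 F c ξ (wG f g h n k)) := by
        rw [show aw0 F c ξ (wG f g h n k) = _ from wd_rep _ n]
        exact (sm_G0_iter (sm_G0 _) n).continuous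
      exact intg (by fun_prop)
  have h1 := key c ξ A S
  simp only [ho] at h1
  have h2 := tendsto_nhds_unique h1 (key c' ξ' A' S')
  have h3 : ob (F₀ := X.F) F c' none ≠ 0 := by
    rw [← ho]
    have := Sob92.openPos F.toPre
    intro k
    have hw : Continuous fun x => ‖c.Φ x‖ ^ 2 := A.sm.continuous.norm.pow 2
    have := (hw.integral_pos_of_hasCompactSupport_nonneg_nonzero (μ := F.μ)
      (x := (Function.ne_iff.1 h0).choose) (HasCompactSupport.of_compactSpace _)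
      (fun _ => sq_nonneg _) (pow_ne_zero _ (norm_ne_zero_iff.2 (Function.ne_iff.1 h0).choose_spec)))
    exact this.ne' k
  have h5 := mul_left_cancel₀ (by positivity : 4 * Real.pi ≠ 0) (mul_left_cancel₀
    (inv_ne_zero (vol_pos F).ne') (mul_right_cancel₀ h3 h2))
  change X.Q _ _ = 0
  rw [map_sub, LinearMap.sub_apply, h5, sub_self]

end Crest.Agent.X212.Abel74
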